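import Vale.Agent.P237.Quant.TailData.N89.tailN89N1Part0
import Vale.Agent.P237.Quant.TailData.N89.tailN89N1Part1
import Vale.Agent.P237.Quant.TailData.N89.tailN89N1Part2
import Vale.Agent.P237.Quant.TailData.N89.tailN89N1Part3
import Vale.Agent.P237.Quant.TailData.N89.tailN89N1Part4
import Vale.Agent.P237.Quant.TailData.N89.tailN89N1Part5
import Vale.Agent.P237.Quant.TailData.N89.tailN89N1Part6
import Vale.Agent.P237.Quant.TailData.N89.tailN89N1Part7

/-!
Tail calibration tailN89N1 in dimension 89. The check. Generated data, checked by the kernel.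
-/

set_option maxRecDepth 100000
set_option linter.all false

namespace Vale.Agent.P237.Quant.TailData

open TailCert


/-- The calibration. -/
noncomputable def tailN89N1 : Cfg :=
  tailN89N1Base.withIvals (List.flatten [tailN89N1L0, tailN89N1L1, tailN89N1L2, tailN89N1L3, tailN89N1L4, tailN89N1L5, tailN89N1L6, tailN89N1L7, tailN89N1L8, tailN89N1L9, tailN89N1L10, tailN89N1L11, tailN89N1L12, tailN89N1L13, tailN89N1L14, tailN89N1L15, tailN89N1L16, tailN89N1L17, tailN89N1L18, tailN89N1L19, tailN89N1L20, tailN89N1L21, tailN89N1L22, tailN89N1L23, tailN89N1L24, tailN89N1L25, tailN89N1L26, tailN89N1L27, tailN89N1L28, tailN89N1L29])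

theorem tailN89N1_parts : [tailN89N1L0, tailN89N1L1, tailN89N1L2, tailN89N1L3, tailN89N1L4, tailN89N1L5, tailN89N1L6, tailN89N1L7, tailN89N1L8, tailN89N1L9, tailN89N1L10, tailN89N1L11, tailN89N1L12, tailN89N1L13, tailN89N1L14, tailN89N1L15, tailN89N1L16, tailN89N1L17, tailN89N1L18, tailN89N1L19, tailN89N1L20, tailN89N1L21, tailN89N1L22, tailN89N1L23, tailN89N1L24, tailN89N1L25, tailN89N1L26, tailN89N1L27, tailN89N1L28, tailN89N1L29].Forall fun l => tailN89N1Base.partUsed tailN89N1Used l = true := by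
  simp only [List.forall_cons, List.Forall]
  exact ⟨tailN89N1L0_ok, tailN89N1L1_ok, tailN89N1L2_ok, tailN89N1L3_ok, tailN89N1L4_ok, tailN89N1L5_ok, tailN89N1L6_ok, tailN89N1L7_ok, tailN89N1L8_ok, tailN89N1L9_ok, tailN89N1L10_ok, tailN89N1L11_ok, tailN89N1L12_ok, tailN89N1L13_ok, tailN89N1L14_ok, tailN89N1L15_ok, tailN89N1L16_ok, tailN89N1L17_ok, tailN89N1L18_ok, tailN89N1L19_ok, tailN89N1L20_ok, tailN89N1L21_ok, tailN89N1L22_ok, tailN89N1L23_ok, tailN89N1L24_ok, tailN89N1L25_ok, tailN89N1L26_ok, tailN89N1L27_ok, tailN89N1L28_ok, tailN89N1L29_ok⟩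

theorem tailN89N1_check : tailN89N1.check = true :=
  Cfg.check_of_parts (by decide +kernel) tailN89N1_parts

end Vale.Agent.P237.Quant.TailData
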