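import Vale.Agent.P237.Quant.TailData.N89.tailN89P1Part0
import Vale.Agent.P237.Quant.TailData.N89.tailN89P1Part1
import Vale.Agent.P237.Quant.TailData.N89.tailN89P1Part2
import Vale.Agent.P237.Quant.TailData.N89.tailN89P1Part3
import Vale.Agent.P237.Quant.TailData.N89.tailN89P1Part4

/-!
Tail calibration tailN89P1 in dimension 89. The check. Generated data, checked by the kernel.
-/

set_option maxRecDepth 100000
set_option linter.all false

namespace Vale.Agent.P237.Quant.TailData

open TailCert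


/-- The calibration. -/
noncomputable def tailN89P1 : Cfg :=
  tailN89P1Base.withIvals (List.flatten [tailN89P1L0, tailN89P1L1, tailN89P1L2, tailN89P1L3, tailN89P1L4, tailN89P1L5, tailN89P1L6, tailN89P1L7, tailN89P1L8, tailN89P1L9, tailN89P1L10, tailN89P1L11, tailN89P1L12, tailN89P1L13, tailN89P1L14, tailN89P1L15, tailN89P1L16, tailN89P1L17])

theorem tailN89P1_parts : [tailN89P1L0, tailN89P1L1, tailN89P1L2, tailN89P1L3, tailN89P1L4, tailN89P1L5, tailN89P1L6, tailN89P1L7, tailN89P1L8, tailN89P1L9, tailN89P1L10, tailN89P1L11, tailN89P1L12, tailN89P1L13, tailN89P1L14, tailN89P1L15, tailN89P1L16, tailN89P1L17].Forall fun l => tailN89P1Base.partUsed tailN89P1Used l = true := by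
  simp only [List.forall_cons, List.Forall]
  exact ⟨tailN89P1L0_ok, tailN89P1L1_ok, tailN89P1L2_ok, tailN89P1L3_ok, tailN89P1L4_ok, tailN89P1L5_ok, tailN89P1L6_ok, tailN89P1L7_ok, tailN89P1L8_ok, tailN89P1L9_ok, tailN89P1L10_ok, tailN89P1L11_ok, tailN89P1L12_ok, tailN89P1L13_ok, tailN89P1L14_ok, tailN89P1L15_ok, tailN89P1L16_ok, tailN89P1L17_ok⟩

theorem tailN89P1_check : tailN89P1.check = true :=
  Cfg.check_of_parts (by decide +kernel) tailN89P1_parts

end Vale.Agent.P237.Quant.TailData
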